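import Vale.Agent.P308.Extract
import Vale.Agent.P308.Count

namespace Vale.Agent.Results.P308.BoundedIndependence

open SimpleGraph Vale.Agent.P308

/-- In a finite graph with independence number at most `k` that has a perfect matching, the
number of near-perfect matchings (matchings leaving exactly two vertices uncovered) is at most
`(k+1)^2 * |V|^(2(k+1)^2)` times the number of perfect matchings. -/
theorem result (k : ℕ) (V : Type*) [Fintype V] (G : SimpleGraph V)
    (hα : G.indepNum ≤ k) (hPM : ∃ M : G.Subgraph, M.IsPerfectMatching) :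
    Set.ncard {M : G.Subgraph | M.IsMatching ∧ (M.verts)ᶜ.ncard = 2} ≤
      (k+1)^2 * (Fintype.card V)^(2*(k+1)^2) *
        Set.ncard {M : G.Subgraph | M.IsPerfectMatching} := by
  classical
  apply ratio_bound
  intro M hM u v _ hverts
  obtain ⟨M', hM'⟩ := hPM
  have hex : ∃ t, ∃ p, AugPath G M u v t p := exists_augPath hM hverts hM'
  obtain ⟨p, hp⟩ := Nat.find_spec hex
  refine ⟨Nat.find hex, p, ?_, hp⟩
  by_contra hcon
  have hα' : ∀ s : Finset V, G.IsIndepSet (s : Set V) → s.card ≤ k :=
    fun s hs => (hs.card_le_indepNum).trans hα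
  have hbig : (k+1)*(k+1) ≤ Nat.find hex + 1 := by
    have : (k+1)^2 = (k+1)*(k+1) := by ring
    omega
  obtain ⟨x, y, b, hxy, hyb, hb, h1, h2⟩ := hp.exists_shortcut hα' hbig
  have hnew := hp.shortcut hxy hyb hb h1 h2
  exact Nat.find_min hex (by omega) ⟨_, hnew⟩

end Vale.Agent.Results.P308.BoundedIndependence
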