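import Vale.Agent.P308.Expander

namespace Vale.Agent.Results.P308.CombinatorialExpander

open SimpleGraph Vale.Agent.P308

/-- Combinatorial expanders (not necessarily regular or bipartite).  All degrees lie in `[δ, Δ]`
with `δ ≥ 128 k`, `k ≥ 1`; every vertex set `L` with `2|L| ≤ 2^T` sends at most `(3/4) δ |L|`
of its darts into any set of at most `28 |L|` vertices; and any sets `A`, `B` with
`|A| ≥ 2^(T-1)`, `|B| ≥ 2^T` span at least `2k` adjacent pairs.  Then
`#NPM * k^(T+1) ≤ 2 |V| Δ^T * #PM`. -/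
theorem result (V : Type*) [Fintype V] [DecidableEq V] (G : SimpleGraph V) [DecidableRel G.Adj]
    (k δ Δ T : ℕ) (hk : 0 < k)
    (hδ : 128 * k ≤ δ) (hmin : ∀ x, δ ≤ G.degree x) (hmax : ∀ x, G.degree x ≤ Δ)
    (hgrow : ∀ L Z : Finset V, 2 * L.card ≤ 2^T → Z.card ≤ 28 * L.card →
      4 * (G.interedges L Z).card ≤ 3 * δ * L.card)
    (hjoin : ∀ A B : Finset V, 2^T ≤ 2 * A.card → 2^T ≤ B.card →
      2 * k ≤ (G.interedges A B).card) :
    Set.ncard {M : G.Subgraph | M.IsMatching ∧ (M.verts)ᶜ.ncard = 2} * k^(T+1) ≤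
      2 * (Fintype.card V * Δ^T * Set.ncard {M : G.Subgraph | M.IsPerfectMatching}) :=
  expander_ratio G k δ Δ T hk hδ hmin hmax hgrow hjoin

end Vale.Agent.Results.P308.CombinatorialExpander
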