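import Vale.Agent.P308.LP.SpectralLP
import Vale.Agent.P308.Variant.Eigen
import Vale.Agent.P308.Variant.EdgeSets

namespace Vale.Agent.Results.P308.SpectralEigenvalues

open SimpleGraph Vale.Agent.P308

/-- Regular spectral expanders, stated with eigenvalues and with matchings as sets of edges
(the wording of the problem).  Let `G` be a `d`-regular graph (`d > 0`, not assumed bipartite)
such that every eigenvalue `μ` of its adjacency matrix that has an eigenvector orthogonal to the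
constants satisfies `|μ| ≤ d/256`.  A perfect matching is a set `M` of edges such that every
vertex lies in exactly one edge of `M`; a near-perfect matching is a set of edges, no two of them
sharing a vertex, that leaves exactly two vertices uncovered.  Then
(a) the number of near-perfect matchings is at most `|V|^10` times the number `Z` of perfect
matchings, and
(b) if `|V| = 2n` then `Z > 0`, `Z ≥ (d / 2^20)^n`, and the ratio of the number of near-perfect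
matchings to `Z` is at most `|V|^10`. -/
theorem result (V : Type*) [Fintype V] [DecidableEq V] (G : SimpleGraph V) [DecidableRel G.Adj]
    (d : ℕ) (hd : 0 < d) (hreg : G.IsRegularOfDegree d)
    (hspec : ∀ (μ : ℝ) (f : V → ℝ), f ≠ 0 → ∑ v, f v = 0 →
      (G.adjMatrix ℝ).mulVec f = μ • f → |μ| ≤ (d:ℝ)/256) :
    Set.ncard {M : Set (Sym2 V) | M ⊆ G.edgeSet ∧
        (∀ v, ∀ e ∈ M, ∀ e' ∈ M, v ∈ e → v ∈ e' → e = e') ∧
        Set.ncard {v | ∀ e ∈ M, v ∉ e} = 2} ≤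
      (Fintype.card V)^10 *
        Set.ncard {M : Set (Sym2 V) | M ⊆ G.edgeSet ∧ ∀ v, ∃! e, e ∈ M ∧ v ∈ e} ∧
    ∀ n : ℕ, Fintype.card V = 2 * n →
      0 < Set.ncard {M : Set (Sym2 V) | M ⊆ G.edgeSet ∧ ∀ v, ∃! e, e ∈ M ∧ v ∈ e} ∧
      ((d:ℝ) / 2^20)^n ≤
        (Set.ncard {M : Set (Sym2 V) | M ⊆ G.edgeSet ∧ ∀ v, ∃! e, e ∈ M ∧ v ∈ e} : ℝ) ∧
      (Set.ncard {M : Set (Sym2 V) | M ⊆ G.edgeSet ∧
          (∀ v, ∀ e ∈ M, ∀ e' ∈ M, v ∈ e → v ∈ e' → e = e') ∧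
          Set.ncard {v | ∀ e ∈ M, v ∉ e} = 2} : ℝ) /
        (Set.ncard {M : Set (Sym2 V) | M ⊆ G.edgeSet ∧ ∀ v, ∃! e, e ∈ M ∧ v ∈ e} : ℝ) ≤
        (Fintype.card V : ℝ)^10 := by
  have hone : (G.adjMatrix ℝ).mulVec (fun _ => (1:ℝ)) = fun _ => (d:ℝ) := by
    funext v
    have := G.adjMatrix_mulVec_const_apply_of_regular (α := ℝ) (a := 1) hreg (v := v)
    simpa [Function.const] using this
  have hq : ∀ f : V → ℝ, ∑ v, f v = 0 →
      ∑ v, ((G.adjMatrix ℝ).mulVec f v)^2 ≤ ((d:ℝ)/256)^2 * ∑ v, (f v)^2 :=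
    Variant.quad_of_eigen (G.adjMatrix ℝ) G.transpose_adjMatrix d hone _ hspec
  have h1 := spectral_ratio G d hd hreg hq
  have hpm := Variant.pm_le G
  have hnpm := Variant.npm_le G
  have ha : Set.ncard {M : Set (Sym2 V) | M ⊆ G.edgeSet ∧
        (∀ v, ∀ e ∈ M, ∀ e' ∈ M, v ∈ e → v ∈ e' → e = e') ∧
        Set.ncard {v | ∀ e ∈ M, v ∉ e} = 2} ≤
      (Fintype.card V)^10 *
        Set.ncard {M : Set (Sym2 V) | M ⊆ G.edgeSet ∧ ∀ v, ∃! e, e ∈ M ∧ v ∈ e} :=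
    hnpm.trans (h1.trans (Nat.mul_le_mul_left _ hpm))
  refine ⟨ha, fun n hn => ?_⟩
  have h2 := spectral_count G d hd hreg hq n hn
  have h3 : d^n ≤ 2^(20*n) *
      Set.ncard {M : Set (Sym2 V) | M ⊆ G.edgeSet ∧ ∀ v, ∃! e, e ∈ M ∧ v ∈ e} :=
    h2.trans (Nat.mul_le_mul_left _ hpm)
  have hpos : 0 < Set.ncard {M : Set (Sym2 V) | M ⊆ G.edgeSet ∧ ∀ v, ∃! e, e ∈ M ∧ v ∈ e} := by
    rcases Nat.eq_zero_or_pos
      (Set.ncard {M : Set (Sym2 V) | M ⊆ G.edgeSet ∧ ∀ v, ∃! e, e ∈ M ∧ v ∈ e}) with h0 | h0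
    · rw [h0, mul_zero] at h3
      have : 0 < d^n := pow_pos hd n
      omega
    · exact h0
  refine ⟨hpos, ?_, ?_⟩
  · rw [div_pow, div_le_iff₀ (by positivity)]
    have h4 : ((d^n : ℕ) : ℝ) ≤ ((2^(20*n) *
      Set.ncard {M : Set (Sym2 V) | M ⊆ G.edgeSet ∧ ∀ v, ∃! e, e ∈ M ∧ v ∈ e} : ℕ) : ℝ) := by
      exact_mod_cast h3
    push_cast at h4
    rw [pow_mul] at h4
    linarith
  · rw [div_le_iff₀ (by exact_mod_cast hpos)]
    exact_mod_cast ha

end Vale.Agent.Results.P308.SpectralEigenvalues
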