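import Vale.Agent.P308.LP.SpectralLP

namespace Vale.Agent.Results.P308.SpectralExpanderCount

open SimpleGraph Vale.Agent.P308

/-- Regular spectral expanders, both statements.  Let `G` be a `d`-regular graph (`d > 0`, not
assumed bipartite) whose adjacency matrix `A` satisfies `‖A f‖ ≤ (d/256) ‖f‖` for every `f`
orthogonal to the constants.  Then
(a) the number of near-perfect matchings (matchings leaving exactly two vertices uncovered) is at
most `|V|^10` times the number of perfect matchings, and
(b) if `|V| = 2n`, the number of perfect matchings is at least `(d / 2^20)^n`. -/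
theorem result (V : Type*) [Fintype V] [DecidableEq V] (G : SimpleGraph V) [DecidableRel G.Adj]
    (d : ℕ) (hd : 0 < d) (hreg : G.IsRegularOfDegree d)
    (hspec : ∀ f : V → ℝ, ∑ v, f v = 0 →
      ∑ v, ((G.adjMatrix ℝ).mulVec f v)^2 ≤ ((d:ℝ)/256)^2 * ∑ v, (f v)^2) :
    Set.ncard {M : G.Subgraph | M.IsMatching ∧ (M.verts)ᶜ.ncard = 2} ≤
      (Fintype.card V)^10 * Set.ncard {M : G.Subgraph | M.IsPerfectMatching} ∧
    ∀ n : ℕ, Fintype.card V = 2 * n →
      d^n ≤ 2^(20*n) * Set.ncard {M : G.Subgraph | M.IsPerfectMatching} :=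
  ⟨spectral_ratio G d hd hreg hspec, fun n hn => spectral_count G d hd hreg hspec n hn⟩

end Vale.Agent.Results.P308.SpectralExpanderCount
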